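import Vale.Agent.P139Z.HF.B

/-! Interval estimates for the high frequency argument. -/

open Set Filter Topology MeasureTheory Complex
open scoped NNReal ENNReal ComplexConjugate ContDiff

namespace Vale.Agent.P139Z.HF

variable {m : ℕ} {β : ℝ} {G : ℝ → ℂ} {l : ℕ} {lam : ℂ} {f g : ℝ → ℂ} {r : ℝ}

theorem Lc_div (l : ℕ) (hr : 0 < r) (hr4 : r ≤ 4) : Lc l / 16 ≤ Lc l / r ^ 2 :=
  div_le_div_of_nonneg_left (Lc_nonneg l) (by positivity) (by nlinarith)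

theorem La_le (hG : IsProfile m β G) (hf : BddC 30 f) (hg : BddC 30 g)
    (h0 : ∀ x ∈ Icc (0 : ℝ) 4, G (x ^ 2) ≠ 0) (l : ℕ) (hr : r ∈ Icc (0 : ℝ) 4) :
    Lc l * La G f g r ≤ 8 * N2 l f g r := by
  have h := mono_le (F := fun x => 8 * N2 l f g x - Lc l * La G f g x) hr.1
    (fun x hx => ((der_N2 l hf hg x).const_mul 8).sub
      ((der_La hG hf hg h0 ⟨hx.1, hx.2.trans hr.2⟩).const_mul (Lc l))) fun x hx => by
      rcases hx.1.eq_or_lt with rfl | hx0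
      · simp [n2, wm]
      have h1 := (al_mul (f := f) (g := g) (h0 x ⟨hx.1, hx.2.trans hr.2⟩)).1
      have h2 := Lc_div l hx0 (hx.2.trans hr.2)
      have h3 := Lc_nonneg l
      have h4 : (‖Qr G x‖ * ‖al G f g x‖) ^ 2 ≤ (‖f x‖ ^ 2 + ‖g x‖ ^ 2) / 2 := by
        have := pow_le_pow_left₀ (by positivity) h1 2
        nlinarith [sq_nonneg (‖f x‖ - ‖g x‖)]
      have h5 := mul_le_mul_of_nonneg_left h4 h3
      have h6 := mul_le_mul_of_nonneg_right h2 (show 0 ≤ ‖f x‖ ^ 2 + ‖g x‖ ^ 2 by positivity)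
      rw [wm_al, n2, mul_left_comm, mul_left_comm (Lc l), ← mul_sub]
      refine mul_nonneg (by positivity) ?_
      nlinarith [sq_nonneg ‖f x‖, sq_nonneg ‖g x‖, sq_nonneg ‖deriv f x‖, sq_nonneg ‖deriv g x‖]
  simp only [N2, La, intervalIntegral.integral_same, mul_zero, sub_zero] at h
  exact sub_nonneg.1 h

theorem EE_le (hG : IsProfile m β G) (h : RSol m β G l lam f g 0 0) (hβ : |β| ≤ 1)
    (h0 : ∀ x ∈ Icc (0 : ℝ) 4, G (x ^ 2) ≠ 0) (hω : 0 ≤ lam.im) {y : ℝ} (hy : 0 < y) (hyr : y ≤ r)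
    (hr4 : r ≤ 4) (hV : ∀ x ∈ Icc y r, ‖pot1 m (G (x ^ 2))‖ ≤ 1 ∧ ‖pot2 m (G (x ^ 2))‖ ≤ 1) :
    EE l lam f g r - EE l lam f g y ≤
      3 * (YY f r - YY f y) + 28 * N2 l f g r + 8 * (lam.im * La G f g r) := by
  have k := mono_le (F := fun x => 3 * YY f x + 28 * N2 l f g x + 8 * (lam.im * La G f g x)
    - EE l lam f g x) hyr
    (fun x hx => ((((der_YY h.bf (hy.trans_le hx.1).ne').const_mul 3).add
      ((der_N2 l h.bf h.bg x).const_mul 28)).add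
      (((der_La hG h.bf h.bg h0 ⟨hy.le.trans hx.1, hx.2.trans hr4⟩).const_mul lam.im).const_mul
        8)).sub (der_EE l lam h.bf h.bg x)) fun x hx => by
      have hx0 := hy.trans_le hx.1
      have hx4 := hx.2.trans hr4
      have h1 := (al_mul (f := f) (g := g) (h0 x ⟨hx0.le, hx4⟩)).2
      have h2 := Lc_div l hx0 hx4
      have h3 := Lc_nonneg l
      have h4 : ‖g x‖ ^ 2 ≤ 8 * (‖Qr G x‖ * ‖al G f g x‖) ^ 2 + 2 * ‖f x‖ ^ 2 := by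
        have := pow_le_pow_left₀ (by positivity) h1 2
        nlinarith [sq_nonneg (2 * (‖Qr G x‖ * ‖al G f g x‖) - ‖f x‖)]
      have h5 := mul_le_mul_of_nonneg_left h4 hω
      have h6 := mul_le_mul_of_nonneg_right h2 (show 0 ≤ ‖f x‖ ^ 2 + ‖g x‖ ^ 2 by positivity)
      have h7 := YD_f h hβ hx0 hx4 (hV x hx).1 (hV x hx).2
      have h8 : 0 ≤ Lc l / x ^ 2 * ‖f x‖ ^ 2 := by positivity
      have h9 : 0 ≤ Lc l / x ^ 2 * ‖g x‖ ^ 2 := by positivity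
      have h10 : 0 ≤ 3 * (‖deriv f x‖ ^ 2 + (Lc l / x ^ 2 + lam.im) * ‖f x‖ ^ 2
          - (2 * (‖f x‖ * ‖deriv f x‖) + 2 * ‖f x‖ ^ 2 + ‖f x‖ * ‖g x‖))
          + 28 * (‖deriv f x‖ ^ 2 + ‖deriv g x‖ ^ 2
            + (Lc l / x ^ 2 + 1) * (‖f x‖ ^ 2 + ‖g x‖ ^ 2))
          + 8 * (lam.im * (‖Qr G x‖ * ‖al G f g x‖) ^ 2)
          - (‖deriv f x‖ ^ 2 + ‖deriv g x‖ ^ 2 + (lam.im + Lc l + 1) * (‖f x‖ ^ 2 + ‖g x‖ ^ 2)) := by
        nlinarith [sq_nonneg ‖f x‖, sq_nonneg ‖g x‖, sq_nonneg ‖deriv f x‖, sq_nonneg ‖deriv g x‖,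
          sq_nonneg (‖f x‖ - ‖g x‖), sq_nonneg (‖f x‖ - ‖deriv f x‖)]
      have h11 := mul_nonneg (pow_nonneg hx0.le 11) h10
      rw [wm_al, n2, ee, en, Om, abs_of_nonneg hω]
      linarith
  have k1 := N2_nonneg l f g hy.le
  have k2 := mul_nonneg hω (La_nonneg G f g hy.le)
  linarith

theorem YY_le (f : ℝ → ℂ) (hr : 0 ≤ r) : |YY f r| ≤ r ^ 11 * (‖f r‖ * ‖deriv f r‖) := by
  rw [YY, abs_mul, abs_of_nonneg (pow_nonneg hr _)]
  exact mul_le_mul_of_nonneg_left (re_le _ _) (pow_nonneg hr _)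

theorem YY_le_n2 (l : ℕ) (f g : ℝ → ℂ) (hr : 0 ≤ r) : |YY f r| ≤ n2 l f g r := by
  refine (YY_le f hr).trans (mul_le_mul_of_nonneg_left ?_ (pow_nonneg hr _))
  have h3 := Lc_nonneg l
  have h8 : 0 ≤ Lc l / r ^ 2 * (‖f r‖ ^ 2 + ‖g r‖ ^ 2) := by positivity
  nlinarith [sq_nonneg ‖g r‖, sq_nonneg ‖deriv g r‖, sq_nonneg (‖f r‖ - ‖deriv f r‖),
    sq_nonneg ‖f r‖, sq_nonneg ‖deriv f r‖]

theorem YY_le_bd1 (f g : ℝ → ℂ) (hr : 0 ≤ r) (hr4 : r ≤ 4) : |YY f r| ≤ 4 ^ 11 * bd1 f g r := by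
  refine (YY_le f hr).trans (mul_le_mul (pow_le_pow_left₀ hr hr4 _) ?_ (by positivity)
    (by positivity))
  unfold bd1
  have := norm_nonneg (f r)
  have := norm_nonneg (g r)
  have := norm_nonneg (deriv f r)
  have := norm_nonneg (deriv g r)
  gcongr <;> linarith

/-- The elementary inequalities with the weight `W = √Ω`. -/
theorem small {a a₁ b b₁ W : ℝ} (hW : 1 ≤ W) :
    2 * (a * a₁) + 2 * (b * b₁) ≤ (a₁ ^ 2 + b₁ ^ 2 + W ^ 2 * (a ^ 2 + b ^ 2)) / W ∧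
      W * (a ^ 2 + b ^ 2) ≤ (a₁ ^ 2 + b₁ ^ 2 + W ^ 2 * (a ^ 2 + b ^ 2)) / W ∧
      2 * ((a + b) * (a₁ + b₁)) ≤ 2 * ((a₁ ^ 2 + b₁ ^ 2 + W ^ 2 * (a ^ 2 + b ^ 2)) / W) := by
  have h0 : 0 < W := by linarith
  refine ⟨?_, ?_, ?_⟩
  · rw [le_div_iff₀ h0]
    nlinarith [sq_nonneg (W * a - a₁), sq_nonneg (W * b - b₁)]
  · rw [le_div_iff₀ h0]
    nlinarith [sq_nonneg a₁, sq_nonneg b₁]
  · rw [← mul_div_assoc, le_div_iff₀ h0]
    nlinarith [sq_nonneg (W * a - a₁), sq_nonneg (W * b - b₁), sq_nonneg (W * a - b₁),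
      sq_nonneg (W * b - a₁)]

theorem one_le_W (l : ℕ) (lam : ℂ) : 1 ≤ Real.sqrt (Om l lam) :=
  Real.one_le_sqrt.2 (one_le_Om l lam)

theorem sq_W (l : ℕ) (lam : ℂ) : Real.sqrt (Om l lam) ^ 2 = Om l lam :=
  Real.sq_sqrt (zero_le_one.trans (one_le_Om l lam))

theorem small_en (l : ℕ) (lam : ℂ) (f g : ℝ → ℂ) (r : ℝ) :
    2 * (‖f r‖ * ‖deriv f r‖) + 2 * (‖g r‖ * ‖deriv g r‖)
        ≤ en l lam f g r / Real.sqrt (Om l lam) ∧
      Real.sqrt (Om l lam) * (‖f r‖ ^ 2 + ‖g r‖ ^ 2) ≤ en l lam f g r / Real.sqrt (Om l lam) ∧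
      ‖f r‖ ^ 2 + ‖g r‖ ^ 2 ≤ en l lam f g r / Real.sqrt (Om l lam) ∧
      bd1 f g r ≤ 3 * (en l lam f g r / Real.sqrt (Om l lam)) := by
  have h := small (a := ‖f r‖) (a₁ := ‖deriv f r‖) (b := ‖g r‖) (b₁ := ‖deriv g r‖)
    (one_le_W l lam)
  rw [sq_W] at h
  have h1 : ‖f r‖ ^ 2 + ‖g r‖ ^ 2 ≤ en l lam f g r / Real.sqrt (Om l lam) :=
    (le_mul_of_one_le_left (by positivity) (one_le_W l lam)).trans h.2.1
  refine ⟨h.1, h.2.1, h1, ?_⟩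
  have h2 : 2 * ((‖f r‖ + ‖g r‖) * (‖deriv f r‖ + ‖deriv g r‖))
      ≤ 2 * (en l lam f g r / Real.sqrt (Om l lam)) := h.2.2
  unfold bd1
  nlinarith [sq_nonneg (‖f r‖ - ‖g r‖)]

theorem ee_div (l : ℕ) (lam : ℂ) (f g : ℝ → ℂ) (r : ℝ) :
    ee l lam f g r / Real.sqrt (Om l lam) = r ^ 11 * (en l lam f g r / Real.sqrt (Om l lam)) :=
  mul_div_assoc _ _ _

/-- The good point for the first component. -/
theorem point_f (h : RSol m β G l lam f g 0 0) (hβ : |β| ≤ 1) {x s μ : ℝ} (hs : 0 < s)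
    (hs1 : s ≤ 1) (hx : 1 ≤ x) (hx4 : x + s ≤ 4)
    (hV : ∀ y ∈ Icc x (x + s), ‖pot1 m (G (y ^ 2))‖ ≤ 1 ∧ ‖pot2 m (G (y ^ 2))‖ ≤ 1)
    (hμ : EE l lam f g (x + s) - EE l lam f g x ≤ μ) (hω : 0 ≤ lam.im) :
    ∃ r ∈ Ioo x (x + s), ‖deriv f r‖ ^ 2 + lam.im * ‖f r‖ ^ 2
      + en l lam f g r / Real.sqrt (Om l lam) ≤ 33 / (s ^ 2 * Real.sqrt (Om l lam)) * μ := by
  have hW := one_le_W l lam
  obtain ⟨r, hr, k⟩ := window (Y := YY f) (Y' := YD f)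
    (P := fun y => y ^ 11 * (‖deriv f y‖ ^ 2 + lam.im * ‖f y‖ ^ 2)) hs hs1
    (W := Real.sqrt (Om l lam)) (by linarith) (fun y _ => der_EE l lam h.bf h.bg y)
    (fun y hy => ee_nonneg l lam f g (by linarith [hy.1]))
    (fun y hy => der_YY h.bf (by linarith [hy.1] : (0 : ℝ) < y).ne')
    (fun y hy => by
      have hy0 : 0 ≤ y := by linarith [hy.1]
      rw [ee_div]
      refine (YY_le f hy0).trans (mul_le_mul_of_nonneg_left ?_ (pow_nonneg hy0 _))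
      have := (small_en l lam f g y).1
      have : 0 ≤ ‖f y‖ * ‖deriv f y‖ := by positivity
      have : 0 ≤ ‖g y‖ * ‖deriv g y‖ := by positivity
      linarith)
    (fun y hy => by
      have hy0 : 0 < y := by linarith [hy.1]
      refine le_trans ?_ (YD_f h hβ hy0 (hy.2.trans hx4) (hV y hy).1 (hV y hy).2)
      rw [ee_div, mul_left_comm, ← mul_sub]
      refine mul_le_mul_of_nonneg_left ?_ (pow_nonneg hy0.le _)
      obtain ⟨a1, -, a2, -⟩ := small_en l lam f g y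
      have h3 := Lc_nonneg l
      have : 0 ≤ Lc l / y ^ 2 * ‖f y‖ ^ 2 := by positivity
      have : 0 ≤ ‖g y‖ * ‖deriv g y‖ := by positivity
      nlinarith [sq_nonneg (‖f y‖ - ‖g y‖), sq_nonneg ‖f y‖, sq_nonneg ‖g y‖]) hμ
  refine ⟨r, hr, le_trans ?_ k⟩
  rw [ee_div, ← mul_add]
  refine le_mul_of_one_le_left ?_ (one_le_pow₀ (hx.trans hr.1.le))
  have := en_nonneg l lam f g r
  positivity

/-- The good point for both components. -/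
theorem point_fg (h : RSol m β G l lam f g 0 0) (hβ : |β| ≤ 1) {x s μ : ℝ} (hs : 0 < s)
    (hs1 : s ≤ 1) (hx : 1 ≤ x) (hx4 : x + s ≤ 4)
    (hV : ∀ y ∈ Icc x (x + s), ‖pot1 m (G (y ^ 2))‖ ≤ 1 ∧ ‖pot2 m (G (y ^ 2))‖ ≤ 1)
    (hμ : EE l lam f g (x + s) - EE l lam f g x ≤ μ) (hω : 0 ≤ lam.im)
    (hL : 32 * lam.im ≤ Lc l) :
    ∃ r ∈ Ioo x (x + s), ‖deriv f r‖ ^ 2 + ‖deriv g r‖ ^ 2
      + en l lam f g r / Real.sqrt (Om l lam) ≤ 33 / (s ^ 2 * Real.sqrt (Om l lam)) * μ := by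
  have hW := one_le_W l lam
  obtain ⟨r, hr, k⟩ := window (Y := fun y => YY f y + YY g y) (Y' := fun y => YD f y + YD g y)
    (P := fun y => y ^ 11 * (‖deriv f y‖ ^ 2 + ‖deriv g y‖ ^ 2)) hs hs1
    (W := Real.sqrt (Om l lam)) (by linarith) (fun y _ => der_EE l lam h.bf h.bg y)
    (fun y hy => ee_nonneg l lam f g (by linarith [hy.1]))
    (fun y hy => (der_YY h.bf (by linarith [hy.1] : (0 : ℝ) < y).ne').add
      (der_YY h.bg (by linarith [hy.1] : (0 : ℝ) < y).ne'))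
    (fun y hy => by
      have hy0 : 0 ≤ y := by linarith [hy.1]
      rw [ee_div]
      refine (abs_add_le _ _).trans ((add_le_add (YY_le f hy0) (YY_le g hy0)).trans ?_)
      rw [← mul_add]
      refine mul_le_mul_of_nonneg_left ?_ (pow_nonneg hy0 _)
      have := (small_en l lam f g y).1
      have : 0 ≤ ‖f y‖ * ‖deriv f y‖ := by positivity
      have : 0 ≤ ‖g y‖ * ‖deriv g y‖ := by positivity
      linarith)
    (fun y hy => by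
      have hy0 : 0 < y := by linarith [hy.1]
      refine le_trans ?_ (add_le_add (YD_f h hβ hy0 (hy.2.trans hx4) (hV y hy).1 (hV y hy).2)
        (YD_g h hβ hy0 (hy.2.trans hx4) (hV y hy).1 (hV y hy).2))
      rw [ee_div, mul_left_comm, ← mul_sub, ← mul_add]
      refine mul_le_mul_of_nonneg_left ?_ (pow_nonneg hy0.le _)
      obtain ⟨a1, -, a2, -⟩ := small_en l lam f g y
      have h3 := Lc_div l hy0 (hy.2.trans hx4)
      have : 0 ≤ (Lc l / y ^ 2 + lam.im) * ‖f y‖ ^ 2 := mul_nonneg (by linarith) (sq_nonneg _)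
      have : 0 ≤ (Lc l / y ^ 2 - lam.im) * ‖g y‖ ^ 2 := mul_nonneg (by linarith) (sq_nonneg _)
      nlinarith [sq_nonneg (‖f y‖ - ‖g y‖), sq_nonneg ‖f y‖, sq_nonneg ‖g y‖]) hμ
  refine ⟨r, hr, le_trans ?_ k⟩
  rw [ee_div, ← mul_add]
  refine le_mul_of_one_le_left ?_ (one_le_pow₀ (hx.trans hr.1.le))
  have := en_nonneg l lam f g r
  positivity

end Vale.Agent.P139Z.HF
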