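import Vale.Agent.P139Z.ODefs

/-! Real-variable lemmas for the high frequency argument. -/

open Set Filter Topology

namespace Vale.Agent.P139Z.HF

theorem mvt {F F' : ℝ → ℝ} {a b : ℝ} (hab : a < b) (h : ∀ x ∈ Icc a b, HasDerivAt F (F' x) x) :
    ∃ c ∈ Ioo a b, F' c * (b - a) = F b - F a := by
  obtain ⟨c, hc, e⟩ := exists_hasDerivAt_eq_slope F F' hab
    (fun x hx => (h x hx).continuousAt.continuousWithinAt) fun x hx => h x (Ioo_subset_Icc_self hx)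
  exact ⟨c, hc, by rw [e, div_mul_cancel₀ _ (sub_pos.2 hab).ne']⟩

theorem mono_le {F F' : ℝ → ℝ} {a b : ℝ} (hab : a ≤ b) (h : ∀ x ∈ Icc a b, HasDerivAt F (F' x) x)
    (h' : ∀ x ∈ Icc a b, 0 ≤ F' x) : F a ≤ F b := by
  rcases hab.eq_or_lt with rfl | hab
  · exact le_rfl
  · obtain ⟨c, hc, e⟩ := mvt hab h
    have := mul_nonneg (h' c (Ioo_subset_Icc_self hc)) (sub_pos.2 hab).le
    linarith

theorem doubling {u : ℕ → ℝ} {k : ℕ} (hk : 1 ≤ k) (h : u k ≤ 2 ^ k * u 0) :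
    ∃ i < k, u (i + 1) ≤ 2 * u i := by
  by_contra hn
  push Not at hn
  have key : ∀ i, i < k → 2 ^ (i + 1) * u 0 < u (i + 1) := by
    intro i
    induction i with
    | zero => intro hi; simpa using hn 0 hi
    | succ j ih =>
      intro hi
      have h1 := ih (by omega)
      have h2 := hn (j + 1) hi
      rw [pow_succ]
      linarith
  have h3 := key (k - 1) (by omega)
  rw [show k - 1 + 1 = k by omega] at h3
  linarith

/-- A point of the window where the coercive part is small. -/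
theorem window {E e Y Y' P : ℝ → ℝ} {x h W μ : ℝ} (hh : 0 < h) (hh1 : h ≤ 1) (hW : 0 < W)
    (hE : ∀ r ∈ Icc x (x + h), HasDerivAt E (e r) r) (he : ∀ r ∈ Icc x (x + h), 0 ≤ e r)
    (hY : ∀ r ∈ Icc x (x + h), HasDerivAt Y (Y' r) r)
    (hb : ∀ r ∈ Icc x (x + h), |Y r| ≤ e r / W)
    (hP : ∀ r ∈ Icc x (x + h), P r - 4 * (e r / W) ≤ Y' r) (hμ : E (x + h) - E x ≤ μ) :
    ∃ r ∈ Ioo x (x + h), P r + e r / W ≤ 33 / (h ^ 2 * W) * μ := by
  have mono : ∀ a b, x ≤ a → a ≤ b → b ≤ x + h → E a ≤ E b := fun a b h1 h2 h3 =>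
    mono_le h2 (fun r hr => hE r ⟨h1.trans hr.1, hr.2.trans h3⟩)
      fun r hr => he r ⟨h1.trans hr.1, hr.2.trans h3⟩
  obtain ⟨x₁, h1, e1⟩ := mvt (F := E) (F' := e) (a := x) (b := x + h / 3) (by linarith)
    fun r hr => hE r ⟨hr.1, by linarith [hr.2]⟩
  obtain ⟨x₂, h2, e2⟩ := mvt (F := E) (F' := e) (a := x + 2 * h / 3) (b := x + h) (by linarith)
    fun r hr => hE r ⟨by linarith [hr.1], hr.2⟩
  have m1 : x₁ ∈ Icc x (x + h) := ⟨h1.1.le, by linarith [h1.2]⟩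
  have m2 : x₂ ∈ Icc x (x + h) := ⟨by linarith [h2.1], h2.2.le⟩
  have h12 : h / 3 ≤ x₂ - x₁ := by linarith [h1.2, h2.1]
  obtain ⟨r, hr, e3⟩ := mvt (F := fun r => Y r + 5 * (E r / W))
    (F' := fun r => Y' r + 5 * (e r / W)) (a := x₁) (b := x₂) (by linarith)
    fun r hr => (hY r ⟨m1.1.trans hr.1, hr.2.trans m2.2⟩).add
      (((hE r ⟨m1.1.trans hr.1, hr.2.trans m2.2⟩).div_const W).const_mul 5)
  have mr : r ∈ Icc x (x + h) := ⟨m1.1.trans hr.1.le, hr.2.le.trans m2.2⟩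
  refine ⟨r, ⟨h1.1.trans hr.1, hr.2.trans h2.2⟩, ?_⟩
  have a1 := mono (x + h / 3) (x + h) (by linarith) (by linarith) le_rfl
  have a2 := mono x (x + 2 * h / 3) le_rfl (by linarith) (by linarith)
  have a3 := mono x x₁ le_rfl m1.1 m1.2
  have a4 := mono x₂ (x + h) m2.1 m2.2 le_rfl
  have a5 := mono x (x + h) le_rfl (by linarith) le_rfl
  have hμ0 : 0 ≤ μ := by linarith
  have b1 : e x₁ ≤ 3 * μ / h := by
    rw [le_div_iff₀ hh]
    linarith
  have b2 : e x₂ ≤ 3 * μ / h := by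
    rw [le_div_iff₀ hh]
    linarith
  have c1 := (neg_le_abs _).trans ((hb x₁ m1).trans (div_le_div_of_nonneg_right b1 hW.le))
  have c2 := (le_abs_self _).trans ((hb x₂ m2).trans (div_le_div_of_nonneg_right b2 hW.le))
  have c3 : E x₂ / W - E x₁ / W ≤ μ / h / W := by
    rw [← sub_div]
    refine div_le_div_of_nonneg_right ?_ hW.le
    rw [le_div_iff₀ hh]
    have := mul_le_of_le_one_right (show 0 ≤ E x₂ - E x₁ by
      linarith [mono x₁ x₂ m1.1 (by linarith) m2.2]) hh1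
    linarith
  have c4 : 3 * μ / h / W = 3 * (μ / h / W) := by ring
  have d1 : (Y' r + 5 * (e r / W)) * (x₂ - x₁) ≤ 11 * (μ / h / W) := by
    rw [e3]
    linarith
  have d2 : 33 / (h ^ 2 * W) * μ * (h / 3) = 11 * (μ / h / W) := by
    field_simp
    ring
  have d3 : 0 ≤ 33 / (h ^ 2 * W) * μ := by positivity
  have d4 := mul_le_mul_of_nonneg_left h12 d3
  have d5 : Y' r + 5 * (e r / W) ≤ 33 / (h ^ 2 * W) * μ :=
    le_of_mul_le_mul_right (by linarith) (show 0 < x₂ - x₁ by linarith)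
  linarith [hP r mr]

/-- A window on which the mass at most doubles. -/
theorem good_window {E e : ℝ → ℝ} {s d K y : ℝ} {k : ℕ} (hE : ∀ x, HasDerivAt E (e x) x)
    (he : ∀ x, 0 ≤ x → 0 ≤ e x) (hs : 0 ≤ s) (hd : 0 < d) (hK : 0 ≤ K) (hk : 1 ≤ k)
    (hk2 : K / d + 1 ≤ 2 ^ k) (hg : ∀ z ∈ Icc (s + d) (s + 2 * d), E (s + 3 * d) - E z ≤ K * e z)
    (hy : y ∈ Icc s (s + d)) :
    ∃ x, s + 2 * d ≤ x ∧ x + d / k ≤ s + 3 * d ∧ E (x + d / k) - E x ≤ E x - E y := by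
  have mono : ∀ a b, 0 ≤ a → a ≤ b → E a ≤ E b := fun a b ha hab =>
    mono_le hab (fun x _ => hE x) fun x hx => he x (ha.trans hx.1)
  obtain ⟨z, hz, ez⟩ := mvt (a := s + d) (b := s + 2 * d) (by linarith) fun x _ => hE x
  have y1 := hy.1
  have y2 := hy.2
  have z1 := hz.1
  have z2 := hz.2
  have g1 := hg z (Ioo_subset_Icc_self hz)
  have g2 : e z ≤ (E (s + 2 * d) - E y) / d := by
    rw [le_div_iff₀ hd]
    have b2 := mono y (s + d) (by linarith) y2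
    rw [show s + 2 * d - (s + d) = d by ring] at ez
    linarith
  have g3 := mul_le_mul_of_nonneg_left g2 hK
  have g4 := mono z (s + 2 * d) (by linarith) z2.le
  have g5 := mono y (s + 2 * d) (by linarith) (by linarith)
  have g7 := mul_le_mul_of_nonneg_right hk2 (sub_nonneg.2 g5)
  have hk0 : (0 : ℝ) < k := by exact_mod_cast hk
  obtain ⟨w, hw⟩ : ∃ w : ℝ, w = d / k := ⟨_, rfl⟩
  have hw0 : 0 < w := by rw [hw]; positivity
  have hwk : k * w = d := by rw [hw]; field_simp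
  obtain ⟨i, hi, hdb⟩ := doubling (u := fun i => E (s + 2 * d + i * w) - E y) hk (by
    simp only [Nat.cast_zero, zero_mul, add_zero]
    rw [hwk, show s + 2 * d + d = s + 3 * d by ring]
    have : K * ((E (s + 2 * d) - E y) / d) = K / d * (E (s + 2 * d) - E y) := by ring
    linarith)
  have hi' : (i : ℝ) + 1 ≤ k := by exact_mod_cast hi
  have x1 : 0 ≤ i * w := by positivity
  have x2 := mul_le_mul_of_nonneg_right hi' hw0.le
  simp only [Nat.cast_add, Nat.cast_one] at hdb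
  rw [add_mul, one_mul, ← add_assoc] at hdb
  rw [← hw]
  exact ⟨s + 2 * d + i * w, by linarith, by linarith, by linarith⟩

theorem absorb {D D' D'' N b t μ W w d k : ℝ} (hD : 0 < D) (hD'' : 0 < D'')
    (hD' : D' = D'' * (2 * D + 3)) (hW : 2 * D ≤ W) (hN : 0 ≤ N) (h1 : N ≤ D * (N / W + t))
    (h2 : b ≤ 3 * t) (h3 : μ ≤ D'' * (N + b)) (hμ : 0 ≤ μ) (hd : 0 < d) (hk : 0 < k)
    (hw : w = d / k) (ht : t = 33 / (w ^ 2 * W) * μ) (h4 : k ^ 2 ≤ d ^ 2 / (66 * D') * W) :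
    t = 0 := by
  have hD'0 : 0 < D' := by rw [hD']; positivity
  have hW0 : 0 < W := by linarith
  have hw0 : 0 < w := by rw [hw]; positivity
  have hwk : k * w = d := by rw [hw]; field_simp
  have c2 : D * (N / W) ≤ N / 2 := by
    rw [← mul_div_assoc, div_le_div_iff₀ hW0 two_pos]
    have := mul_le_mul_of_nonneg_left hW hN
    linarith
  have c3 : N + b ≤ (2 * D + 3) * t := by linarith
  have c10 : μ ≤ D' * t := by
    rw [hD', mul_assoc]
    exact h3.trans (mul_le_mul_of_nonneg_left c3 hD''.le)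
  have c11 : D' * (33 / (w ^ 2 * W)) ≤ 1 / 2 := by
    rw [← hwk, div_mul_eq_mul_div, le_div_iff₀ (by positivity), mul_pow, mul_assoc (k ^ 2),
      mul_le_mul_iff_right₀ (by positivity)] at h4
    rw [← mul_div_assoc, div_le_div_iff₀ (by positivity) two_pos]
    linarith
  have c12 := mul_le_mul_of_nonneg_right c11 hμ
  have c13 : μ = 0 := by
    rw [ht, ← mul_assoc] at c10
    linarith
  rw [ht, c13, mul_zero]

/-- The number of windows. -/
theorem exists_count (A : ℝ) {ε : ℝ} (hε : 0 < ε) (N : ℕ) : ∃ Ω₀ : ℝ, ∀ Ω : ℝ, Ω₀ ≤ Ω →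
    ∃ k : ℕ, 1 ≤ k ∧ A * Ω ^ N + 1 ≤ 2 ^ k ∧ (k : ℝ) ^ 2 ≤ ε * Real.sqrt Ω := by
  have h1 := tendsto_pow_const_div_const_pow_of_one_lt (8 * N) (show (1 : ℝ) < 2 by norm_num)
  have h2 := h1.eventually (gt_mem_nhds (show (0 : ℝ) < 1 / (|A| + 1) by positivity))
  have h3 := (tendsto_natCast_atTop_atTop (R := ℝ)).eventually_ge_atTop (4 / ε)
  obtain ⟨k₀, hk₀⟩ := eventually_atTop.1 h2
  obtain ⟨k₁, hk₁⟩ := eventually_atTop.1 h3
  refine ⟨((k₀ + k₁ + 1 : ℕ) : ℝ) ^ 8 + 1, fun Ω hΩ => ?_⟩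
  have hex : ∃ k : ℕ, Ω ≤ (k : ℝ) ^ 8 := by
    obtain ⟨k, hk⟩ := exists_nat_ge (max Ω 1)
    exact ⟨k, (le_max_left _ _).trans (hk.trans (le_self_pow₀ ((le_max_right _ _).trans hk)
      (by norm_num)))⟩
  classical
  have hs := Nat.find_spec hex
  have hlt : k₀ + k₁ + 1 < Nat.find hex := by
    by_contra hn
    have h4 : ((Nat.find hex : ℕ) : ℝ) ≤ ((k₀ + k₁ + 1 : ℕ) : ℝ) := by exact_mod_cast not_lt.1 hn
    have h5 := pow_le_pow_left₀ (Nat.cast_nonneg _) h4 8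
    linarith
  obtain ⟨j, hj⟩ : ∃ j, Nat.find hex = j + 1 := ⟨Nat.find hex - 1, by omega⟩
  have hm := Nat.find_min hex (show j < Nat.find hex by omega)
  rw [hj] at hs hlt
  have hΩ0 : 0 ≤ Ω := le_trans (by positivity) hΩ
  have hj1 : (1 : ℝ) ≤ j := by exact_mod_cast (show 1 ≤ j by omega)
  refine ⟨j + 1, by omega, ?_, ?_⟩
  · have h4 := hk₀ (j + 1) (by omega)
    rw [div_lt_div_iff₀ (by positivity) (by positivity), one_mul] at h4
    have h5 : Ω ^ N ≤ ((j + 1 : ℕ) : ℝ) ^ (8 * N) := by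
      rw [pow_mul]
      exact pow_le_pow_left₀ hΩ0 hs N
    have h6 : (1 : ℝ) ≤ ((j + 1 : ℕ) : ℝ) ^ (8 * N) := one_le_pow₀ (by push_cast; linarith)
    have h7 : A * Ω ^ N ≤ |A| * ((j + 1 : ℕ) : ℝ) ^ (8 * N) :=
      mul_le_mul (le_abs_self A) h5 (by positivity) (abs_nonneg A)
    linarith
  · have h4 : (j : ℝ) ^ 4 ≤ Real.sqrt Ω := Real.le_sqrt_of_sq_le (by
      rw [← pow_mul]
      exact (not_le.1 hm).le)
    have h5 := hk₁ j (by omega)
    rw [div_le_iff₀ hε] at h5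
    push_cast
    have h6 : ((j : ℝ) + 1) ^ 2 ≤ 4 * (j : ℝ) ^ 2 := by nlinarith
    have h7 : 4 * (j : ℝ) ^ 2 ≤ j * ε * (j : ℝ) ^ 2 := by gcongr
    have h8 : (j : ℝ) ^ 3 ≤ (j : ℝ) ^ 4 := pow_le_pow_right₀ hj1 (by norm_num)
    have h9 := mul_le_mul_of_nonneg_left (h8.trans h4) hε.le
    nlinarith

end Vale.Agent.P139Z.HF
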