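import Vale.Agent.P139Z.IntB
import Vale.Agent.P139Z.HF.A

/-! Derivatives and pointwise inequalities for the high frequency argument. -/

open Set Filter Topology MeasureTheory Complex
open scoped NNReal ENNReal ComplexConjugate ContDiff

namespace Vale.Agent.P139Z.HF

variable {m : ℕ} {β : ℝ} {G : ℝ → ℂ} {l : ℕ} {lam : ℂ} {f g : ℝ → ℂ} {r : ℝ}

theorem cont0 (hf : BddC 30 f) : Continuous f := hf.smooth.continuous

theorem cont1 (hf : BddC 30 f) : Continuous (deriv f) :=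
  hf.smooth.continuous_deriv (by norm_num)

theorem der0 (hf : BddC 30 f) (r : ℝ) : HasDerivAt f (deriv f r) r :=
  (hf.smooth.differentiable (by norm_num) r).hasDerivAt

theorem der1 (hf : BddC 30 f) (r : ℝ) : HasDerivAt (deriv f) (iteratedDeriv 2 f r) r := by
  have h := (hf.smooth.differentiable_iteratedDeriv 1 (by norm_num) r).hasDerivAt
  rwa [← iteratedDeriv_succ, iteratedDeriv_one] at h

/-- The density of `N2`. -/
noncomputable def n2 (l : ℕ) (f g : ℝ → ℂ) (r : ℝ) : ℝ :=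
  r ^ 11 * (‖deriv f r‖ ^ 2 + ‖deriv g r‖ ^ 2 + (Lc l / r ^ 2 + 1) * (‖f r‖ ^ 2 + ‖g r‖ ^ 2))

/-- The energy density. -/
noncomputable def ee (l : ℕ) (lam : ℂ) (f g : ℝ → ℂ) (r : ℝ) : ℝ := r ^ 11 * en l lam f g r

/-- The integrated energy. -/
noncomputable def EE (l : ℕ) (lam : ℂ) (f g : ℝ → ℂ) (r : ℝ) : ℝ :=
  ∫ x in (0 : ℝ)..r, ee l lam f g x

/-- The virial of one component. -/
noncomputable def YY (f : ℝ → ℂ) (r : ℝ) : ℝ := r ^ 11 * (conj (f r) * deriv f r).re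

/-- The derivative of the virial. -/
noncomputable def YD (f : ℝ → ℂ) (r : ℝ) : ℝ :=
  r ^ 11 * (‖deriv f r‖ ^ 2 + (conj (f r) * (iteratedDeriv 2 f r + 11 / (r : ℂ) * deriv f r)).re)

theorem Lc_nonneg (l : ℕ) : 0 ≤ Lc l := by
  unfold Lc
  positivity

theorem one_le_Om (l : ℕ) (lam : ℂ) : 1 ≤ Om l lam := by
  have := Lc_nonneg l
  have := abs_nonneg lam.im
  unfold Om
  linarith

theorem en_nonneg (l : ℕ) (lam : ℂ) (f g : ℝ → ℂ) (r : ℝ) : 0 ≤ en l lam f g r := by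
  have := one_le_Om l lam
  unfold en
  positivity

theorem n2_nonneg (l : ℕ) (f g : ℝ → ℂ) (hr : 0 ≤ r) : 0 ≤ n2 l f g r := by
  have := Lc_nonneg l
  unfold n2
  positivity

theorem ee_nonneg (l : ℕ) (lam : ℂ) (f g : ℝ → ℂ) (hr : 0 ≤ r) : 0 ≤ ee l lam f g r :=
  mul_nonneg (pow_nonneg hr _) (en_nonneg l lam f g r)

theorem en_le_ee (l : ℕ) (lam : ℂ) (f g : ℝ → ℂ) (hr : 1 ≤ r) :
    en l lam f g r ≤ ee l lam f g r :=
  le_mul_of_one_le_left (en_nonneg l lam f g r) (one_le_pow₀ hr)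

theorem cont_n2 (l : ℕ) (hf : BddC 30 f) (hg : BddC 30 g) : Continuous (n2 l f g) := by
  have e : n2 l f g = fun r => r ^ 11 * (‖deriv f r‖ ^ 2 + ‖deriv g r‖ ^ 2)
      + (Lc l * r ^ 9 + r ^ 11) * (‖f r‖ ^ 2 + ‖g r‖ ^ 2) := by
    funext r
    unfold n2
    by_cases h : r = 0
    · simp [h]
    · field_simp
  have := cont0 hf
  have := cont0 hg
  have := cont1 hf
  have := cont1 hg
  rw [e]
  fun_prop

theorem cont_ee (l : ℕ) (lam : ℂ) (hf : BddC 30 f) (hg : BddC 30 g) :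
    Continuous (ee l lam f g) := by
  have := cont0 hf
  have := cont0 hg
  have := cont1 hf
  have := cont1 hg
  unfold ee en
  fun_prop

theorem der_N2 (l : ℕ) (hf : BddC 30 f) (hg : BddC 30 g) (r : ℝ) :
    HasDerivAt (N2 l f g) (n2 l f g r) r :=
  ((cont_n2 l hf hg).integral_hasStrictDerivAt 0 r).hasDerivAt

theorem der_EE (l : ℕ) (lam : ℂ) (hf : BddC 30 f) (hg : BddC 30 g) (r : ℝ) :
    HasDerivAt (EE l lam f g) (ee l lam f g r) r :=
  ((cont_ee l lam hf hg).integral_hasStrictDerivAt 0 r).hasDerivAt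

theorem EE_sub (l : ℕ) (lam : ℂ) (hf : BddC 30 f) (hg : BddC 30 g) (a b : ℝ) :
    EE l lam f g b - EE l lam f g a = ∫ r in a..b, r ^ 11 * en l lam f g r :=
  intervalIntegral.integral_interval_sub_left ((cont_ee l lam hf hg).intervalIntegrable _ _)
    ((cont_ee l lam hf hg).intervalIntegrable _ _)

theorem N2_nonneg (l : ℕ) (f g : ℝ → ℂ) (hr : 0 ≤ r) : 0 ≤ N2 l f g r :=
  intervalIntegral.integral_nonneg hr fun _ hx => n2_nonneg l f g hx.1

theorem wm_nonneg (G : ℝ → ℂ) (hr : 0 ≤ r) : 0 ≤ wm G r := by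
  unfold wm
  positivity

theorem La_nonneg (G f g : ℝ → ℂ) (hr : 0 ≤ r) : 0 ≤ La G f g r :=
  intervalIntegral.integral_nonneg hr fun _ hx => mul_nonneg (wm_nonneg G hx.1) (sq_nonneg _)

theorem bd1_nonneg (f g : ℝ → ℂ) (r : ℝ) : 0 ≤ bd1 f g r := by
  unfold bd1
  positivity

theorem der_La (hG : IsProfile m β G) (hf : BddC 30 f) (hg : BddC 30 g)
    (h0 : ∀ x ∈ Icc (0 : ℝ) 4, G (x ^ 2) ≠ 0) (hr : r ∈ Icc (0 : ℝ) 4) :
    HasDerivAt (La G f g) (wm G r * ‖al G f g r‖ ^ 2) r := by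
  have hc : Continuous fun x : ℝ => G (x ^ 2) := hG.smooth.continuous.comp (continuous_pow 2)
  have hw : Continuous (wm G) := (continuous_pow 11).mul (hc.norm.pow 2)
  have h1 : ∀ x ∈ {x : ℝ | G (x ^ 2) ≠ 0},
      ContinuousAt (fun x => wm G x * ‖al G f g x‖ ^ 2) x := fun x hx =>
    hw.continuousAt.mul ((contDiffAt_al hG hf hg hx).1.continuousAt.norm.pow 2)
  refine intervalIntegral.integral_hasDerivAt_right (ContinuousOn.intervalIntegrable ?_)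
    (ContinuousAt.stronglyMeasurableAtFilter (isOpen_ne_fun hc continuous_const) h1 r (h0 r hr))
    (h1 r (h0 r hr))
  rw [uIcc_of_le hr.1]
  exact fun x hx => (h1 x (h0 x ⟨hx.1, hx.2.trans hr.2⟩)).continuousWithinAt

theorem der_YY (hf : BddC 30 f) (hr : r ≠ 0) : HasDerivAt (YY f) (YD f r) r := by
  have h1 : HasDerivAt (fun x => conj (f x)) (conj (deriv f r)) r := (der0 hf r).star
  have h2 := reCLM.hasFDerivAt.comp_hasDerivAt r (h1.mul (der1 hf r))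
  have h3 := (hasDerivAt_pow 11 r).mul h2
  refine h3.congr_deriv ?_
  have h4 : (conj (deriv f r) * deriv f r).re = ‖deriv f r‖ ^ 2 := by
    rw [Complex.conj_mul']
    norm_cast
  have h5 : (conj (f r) * (11 / (r : ℂ) * deriv f r)).re = 11 / r * (conj (f r) * deriv f r).re := by
    rw [mul_left_comm, show (11 / (r : ℂ)) = ((11 / r : ℝ) : ℂ) by push_cast; rfl, re_ofReal_mul]
  simp only [YD, Function.comp, reCLM_apply, Pi.mul_apply, add_re, mul_add, h4, h5]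
  field_simp
  ring

theorem re_le (u v : ℂ) : |(conj u * v).re| ≤ ‖u‖ * ‖v‖ :=
  (abs_re_le_norm _).trans (by rw [norm_mul, Complex.norm_conj])

theorem im_le (u v : ℂ) : |(conj u * v).im| ≤ ‖u‖ * ‖v‖ :=
  (abs_im_le_norm _).trans (by rw [norm_mul, Complex.norm_conj])

theorem key (u u₁ w v V₁ V₂ : ℂ) (p q s : ℝ) (h : w = p * u + I * q * u + I * s * u₁ + V₁ * u + V₂ * v)
    (hs : |s| ≤ 2) (h1 : ‖V₁‖ ≤ 1) (h2 : ‖V₂‖ ≤ 1) :
    p * ‖u‖ ^ 2 - (2 * (‖u‖ * ‖u₁‖) + ‖u‖ ^ 2 + ‖u‖ * ‖v‖) ≤ (conj u * w).re := by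
  have e1 : conj u * u = ((‖u‖ ^ 2 : ℝ) : ℂ) := by
    rw [Complex.conj_mul']
    norm_cast
  have e2 : conj u * w = (p * ‖u‖ ^ 2 : ℝ) + I * (q * ‖u‖ ^ 2 : ℝ) + conj u * (I * s * u₁)
      + conj u * (V₁ * u) + conj u * (V₂ * v) := by
    rw [h, ofReal_mul, ofReal_mul, ← e1]
    ring
  have a1 := (neg_le_abs _).trans (re_le u (I * s * u₁))
  have a2 := (neg_le_abs _).trans (re_le u (V₁ * u))
  have a3 := (neg_le_abs _).trans (re_le u (V₂ * v))
  have b1 : ‖I * s * u₁‖ ≤ 2 * ‖u₁‖ := by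
    rw [norm_mul, norm_mul, norm_I, one_mul, norm_real, Real.norm_eq_abs]
    gcongr
  have b2 : ‖V₁ * u‖ ≤ ‖u‖ := by
    rw [norm_mul]
    exact mul_le_of_le_one_left (norm_nonneg _) h1
  have b3 : ‖V₂ * v‖ ≤ ‖v‖ := by
    rw [norm_mul]
    exact mul_le_of_le_one_left (norm_nonneg _) h2
  have c1 := mul_le_mul_of_nonneg_left b1 (norm_nonneg u)
  have c2 := mul_le_mul_of_nonneg_left b2 (norm_nonneg u)
  have c3 := mul_le_mul_of_nonneg_left b3 (norm_nonneg u)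
  rw [e2]
  simp only [add_re, ofReal_re, mul_re I, I_re, I_im, ofReal_im, zero_mul, mul_zero, sub_zero]
  nlinarith

theorem I_Lam (m : ℕ) (β : ℝ) : I * Lam m β = I * ((1 / (2 * (m : ℝ)) : ℝ) : ℂ) + β := by
  unfold Lam
  push_cast
  linear_combination (-(β : ℂ)) * I_sq

theorem YD_f (h : RSol m β G l lam f g 0 0) (hβ : |β| ≤ 1) (hr : 0 < r) (hr4 : r ≤ 4)
    (h1 : ‖pot1 m (G (r ^ 2))‖ ≤ 1) (h2 : ‖pot2 m (G (r ^ 2))‖ ≤ 1) :
    r ^ 11 * (‖deriv f r‖ ^ 2 + (Lc l / r ^ 2 + lam.im) * ‖f r‖ ^ 2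
      - (2 * (‖f r‖ * ‖deriv f r‖) + 2 * ‖f r‖ ^ 2 + ‖f r‖ * ‖g r‖)) ≤ YD f r := by
  have e := h.eqF r hr
  have k := key (f r) (deriv f r) (iteratedDeriv 2 f r + 11 / (r : ℂ) * deriv f r) (g r) _ _
    (Lc l / r ^ 2 + lam.im - β) (-(lam.re + 1 / (2 * (m : ℝ)))) (-(r / 2)) (by
      have e1 := I_Lam m β
      have e2 := re_add_im lam
      simp only [opF, Qr, Pi.zero_apply] at e
      unfold Lc
      push_cast at e1 ⊢
      linear_combination e - f r * e1 + I * f r * e2 - (lam.im : ℂ) * f r * I_sq)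
    (by rw [abs_neg, abs_of_pos (by linarith)]; linarith) h1 h2
  have k2 := mul_le_mul_of_nonneg_right ((le_abs_self β).trans hβ) (sq_nonneg ‖f r‖)
  unfold YD
  refine mul_le_mul_of_nonneg_left ?_ (by positivity)
  linarith

theorem YD_g (h : RSol m β G l lam f g 0 0) (hβ : |β| ≤ 1) (hr : 0 < r) (hr4 : r ≤ 4)
    (h1 : ‖pot1 m (G (r ^ 2))‖ ≤ 1) (h2 : ‖pot2 m (G (r ^ 2))‖ ≤ 1) :
    r ^ 11 * (‖deriv g r‖ ^ 2 + (Lc l / r ^ 2 - lam.im) * ‖g r‖ ^ 2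
      - (2 * (‖g r‖ * ‖deriv g r‖) + 2 * ‖g r‖ ^ 2 + ‖g r‖ * ‖f r‖)) ≤ YD g r := by
  have e := h.eqG r hr
  have k := key (g r) (deriv g r) (iteratedDeriv 2 g r + 11 / (r : ℂ) * deriv g r) (f r) _
    (conj (pot2 m (G (r ^ 2))))
    (Lc l / r ^ 2 - lam.im - β) (lam.re + 1 / (2 * (m : ℝ))) (r / 2) (by
      have e1 := congrArg conj (I_Lam m β)
      have e2 := re_add_im lam
      simp only [map_mul, map_add, conj_I, conj_ofReal] at e1
      simp only [opG, Qr, Pi.zero_apply] at e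
      unfold Lc
      push_cast at e1 ⊢
      linear_combination e - g r * e1 - I * g r * e2 + (lam.im : ℂ) * g r * I_sq)
    (by rw [abs_of_pos (by linarith)]; linarith) h1 (by rwa [Complex.norm_conj])
  have k2 := mul_le_mul_of_nonneg_right ((le_abs_self β).trans hβ) (sq_nonneg ‖g r‖)
  unfold YD
  refine mul_le_mul_of_nonneg_left ?_ (by positivity)
  linarith

theorem al_mul (h0 : G (r ^ 2) ≠ 0) :
    ‖Qr G r‖ * ‖al G f g r‖ ≤ (‖f r‖ + ‖g r‖) / 2 ∧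
      ‖g r‖ ≤ 2 * (‖Qr G r‖ * ‖al G f g r‖) + ‖f r‖ := by
  have hq : Qr G r ≠ 0 := h0
  have hq' : conj (Qr G r) ≠ 0 := (map_ne_zero _).2 hq
  have hn : ‖Qr G r‖ ≠ 0 := norm_ne_zero_iff.2 hq
  have n1 : ‖conj (Qr G r) * (f r / Qr G r)‖ = ‖f r‖ := by
    rw [norm_mul, norm_div, Complex.norm_conj, mul_div_cancel₀ _ hn]
  have e : 2 * (conj (Qr G r) * al G f g r) = conj (Qr G r) * (f r / Qr G r) + g r := by
    unfold al
    field_simp
  have n2 : ‖2 * (conj (Qr G r) * al G f g r)‖ = 2 * (‖Qr G r‖ * ‖al G f g r‖) := by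
    rw [norm_mul, norm_mul, Complex.norm_conj, Complex.norm_two]
  constructor
  · have := norm_add_le (conj (Qr G r) * (f r / Qr G r)) (g r)
    rw [← e, n1, n2] at this
    linarith
  · have := norm_sub_le (2 * (conj (Qr G r) * al G f g r)) (conj (Qr G r) * (f r / Qr G r))
    rwa [n1, n2, e, add_sub_cancel_left] at this

theorem wm_al (G f g : ℝ → ℂ) (r : ℝ) :
    wm G r * ‖al G f g r‖ ^ 2 = r ^ 11 * (‖Qr G r‖ * ‖al G f g r‖) ^ 2 := by
  unfold wm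
  ring

end Vale.Agent.P139Z.HF
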